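import Vale.Agent.P089Z.Main

namespace Vale.Agent.Results.P089.AKasparovCycles

open Vale.Agent.P089Z

/-- There is a finitely generated group `G` whose assembly map `μ_0`, defined on equivariant
Kasparov cycles over proper cocompact `G`-spaces by descent and product with the cutoff
projection, is not surjective: there is a projection `P` in `C*_r(G)` such that no multiple
`m [P]`, `m ≥ 1`, is the index of a cycle. The last two clauses say that the recipe for the index
applies to every cycle, and that the class of the unit is in the image. -/
theorem result : ∃ (G : Type) (_ : Group G), Countable G ∧ Group.FG G ∧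
    ∀ (K : Type) [NormedAddCommGroup K] [InnerProductSpace ℂ K] [CompleteSpace K]
      (E : Type) [NormedAddCommGroup E] [InnerProductSpace ℂ E] [CompleteSpace E]
      (b : HilbertBasis G ℂ K) (c : HilbertBasis (G × ℕ) ℂ E),
      ¬ AssemblySurjective b c ∧ MissesProjection b c ∧ RecipeApplies c ∧ HitsUnit b c :=
  final

end Vale.Agent.Results.P089.AKasparovCycles
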